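import Vale.Agent.P283.M647.Defs

/-!
Pairs `(X', B')` with a correspondence of bounded degree to a pair of arrangement type.
-/

namespace Vale.Agent.P283.O647

open Vale.Agent.P283.Q Vale.Agent.P283.M647

variable {g R k N M : ℕ}

/-- `Z = Spec A`; `L` is a finite extension of degree at most `J` of `K` and of
`ℂ(t_1, …, t_g, z_1, …, z_k)`, and the latter is purely transcendental over `ℂ`; `H_1, …, H_R` are
hyperplanes in `ℙ^g`; and `A ⊆ K` has the same integral closure in `L` as the ring generated by all
monomials in the `ℓ_i` and `z_l` and their inverses with exponents in the dual of the cone spanned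
by the vectors `v j`; for every `v j`, at most one of the `ℓ_p` has more than the least weight. So
the normalization `Y'` in `L` of a variety `X'` with the function field `K` is finite of degree at
most `J` over `X'`, and generically finite of degree at most `J` over a variety with an action of
the torus with the coordinates `z_l` and with the quotient `ℙ^g`. -/
structure IsCorr (J : ℕ) {K L : Type} [Field K] [Field L] [Algebra ℂ K] [Algebra ℂ L]
    [Algebra K L] (t : Fin g → L) (a : Fin R → Fin (g + 1) → ℂ) (z : Fin k → L)
    (v : Fin N → Fin R ⊕ Fin k → ℤ) (A : Subalgebra ℂ K) : Prop where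
  finite : FiniteDimensional K L
  degree : Module.finrank K L ≤ J
  independent : AlgebraicIndependent ℂ (Fin.append t z)
  finiteDim : FiniteDimensional (IntermediateField.adjoin ℂ (Set.range (Fin.append t z))) L
  degree' : Module.finrank (IntermediateField.adjoin ℂ (Set.range (Fin.append t z))) L ≤ J
  arr : IsArr a
  rays : ∀ j, OnRay (v j)
  cover : ∀ b ∈ A, IsIntegral (Algebra.adjoin ℂ {x : L | ∃ u : Fin R ⊕ Fin k → ℤ,
    (∀ j, 0 ≤ ∑ x, v j x * u x) ∧ x = ∏ l, coord t a z l ^ u l}) (algebraMap K L b)
  finiteCover : ∀ u : Fin R ⊕ Fin k → ℤ, (∀ j, 0 ≤ ∑ x, v j x * u x) →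
    IsIntegral A (∏ l, coord t a z l ^ u l)

end Vale.Agent.P283.O647
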