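import Vale.Agent.P283.O647.Props

/-!
F1. Galois closures of bounded degree.
-/

set_option linter.all false

namespace Vale.Agent.P283.O647

open Polynomial

theorem f1 : GalClosure := by
  classical
  intro K L _ _ _ _ _
  let pb := Field.powerBasisOfFiniteOfSeparable K L
  set p := minpoly K pb.gen with hp
  have hirr : Irreducible p := minpoly.irreducible pb.isIntegral_gen
  have hdeg : p.natDegree = Module.finrank K L := by
    rw [hp, pb.natDegree_minpoly, pb.finrank]
  have hspl : (p.map (algebraMap K p.SplittingField)).Splits := SplittingField.splits p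
  have hpos : (p.map (algebraMap K p.SplittingField)).degree ≠ 0 := by
    rw [degree_map]
    exact (degree_pos_of_irreducible hirr).ne'
  obtain ⟨x, hx⟩ := hspl.exists_eval_eq_zero hpos
  have hx' : aeval x (minpoly K pb.gen) = 0 := by
    rw [← hp, aeval_def, ← eval_map]; exact hx
  let f : L →ₐ[K] p.SplittingField := pb.lift x hx'
  letI : Algebra L p.SplittingField := f.toRingHom.toAlgebra
  refine ⟨p.SplittingField, inferInstance, inferInstance, f.toRingHom.toAlgebra, ?_, ?_, ?_, ?_⟩
  · exact IsScalarTower.of_algebraMap_eq fun a => (f.commutes a).symm
  · exact IsGalois.of_separable_splitting_field (p := p) hirr.separable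
  · exact Polynomial.IsSplittingField.finiteDimensional p.SplittingField p
  · haveI : Fact ((p.map (algebraMap K p.SplittingField)).Splits) := ⟨hspl⟩
    have h1 := Gal.galActionHom_injective p p.SplittingField
    have h2 : Nat.card p.Gal ≤ Nat.card (Equiv.Perm (p.rootSet p.SplittingField)) :=
      Nat.card_le_card_of_injective _ h1
    have h3 : Nat.card (Equiv.Perm (p.rootSet p.SplittingField)) =
        (Fintype.card (p.rootSet p.SplittingField)).factorial := by
      rw [Nat.card_eq_fintype_card, Fintype.card_perm]
    have h4 : Fintype.card (p.rootSet p.SplittingField) ≤ Module.finrank K L := by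
      rw [← hdeg, ← Nat.card_eq_fintype_card]
      exact (Nat.card_coe_set_eq (p.rootSet p.SplittingField)).le.trans
        (ncard_rootSet_le p p.SplittingField)
    exact (h2.trans h3.le).trans (Nat.factorial_le h4)

end Vale.Agent.P283.O647
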