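import Vale.Agent.P283.O647.Props

/-!
F2: the degree over the rational function field.
-/

set_option linter.all false

namespace Vale.Agent.P283.O647

open Vale.Agent.P283.M647 Vale.Agent.P283.N647

theorem f2 : DegTower := by
  intro d L L' _ _ _ _ _ _ _ y hfin
  haveI := hfin
  obtain ⟨φ, hφ⟩ : ∃ φ : L →ₐ[ℂ] L', ∀ x, φ x = algebraMap L L' x :=
    ⟨IsScalarTower.toAlgHom ℂ L L', fun _ => rfl⟩
  have h1 : IntermediateField.adjoin ℂ (Set.range fun i => algebraMap L L' (y i)) =
      (IntermediateField.adjoin ℂ (Set.range y)).map φ := by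
    rw [IntermediateField.adjoin_map, ← Set.range_comp]
    congr 2
    funext i
    exact (hφ _).symm
  rw [h1]
  let e : IntermediateField.adjoin ℂ (Set.range y) ≃ₐ[ℂ]
      (IntermediateField.adjoin ℂ (Set.range y)).map φ :=
    IntermediateField.equivMap (IntermediateField.adjoin ℂ (Set.range y)) φ
  haveI : FiniteDimensional (IntermediateField.adjoin ℂ (Set.range y)) L' :=
    FiniteDimensional.trans _ L _
  have h2 : Module.rank (IntermediateField.adjoin ℂ (Set.range y)) L' =
      Module.rank ((IntermediateField.adjoin ℂ (Set.range y)).map φ) L' := by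
    refine rank_eq_of_equiv_equiv (fun x => e x) (AddEquiv.refl L') e.bijective fun x m => ?_
    simp only [AddEquiv.refl_apply]
    rw [Algebra.smul_def, Algebra.smul_def]
    congr 1
    exact (hφ _).symm
  have h3 : Module.finrank ((IntermediateField.adjoin ℂ (Set.range y)).map φ) L' =
      Module.finrank (IntermediateField.adjoin ℂ (Set.range y)) L * Module.finrank L L' := by
    rw [Module.finrank_mul_finrank]
    unfold Module.finrank
    rw [h2]
  refine ⟨?_, h3⟩
  apply Module.finite_of_finrank_pos
  rw [h3]
  exact Nat.mul_pos Module.finrank_pos Module.finrank_pos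

end Vale.Agent.P283.O647
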