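import Vale.Agent.P283.O647.Props
import Vale.Agent.P283.N647.E6

/-!
F3. The cover in the Galois closure.
-/

set_option linter.all false

namespace Vale.Agent.P283.O647

open Vale.Agent.P283.M647 Vale.Agent.P283.N647

namespace F3

variable {K L : Type} [Field K] [Field L] [Algebra ℂ K] [Algebra ℂ L] [Algebra K L]
  [IsScalarTower ℂ K L]

/-- Automorphisms over `K` as automorphisms over `ℂ`. -/
def resHom (K L : Type) [Field K] [Field L] [Algebra ℂ K] [Algebra ℂ L] [Algebra K L]
    [IsScalarTower ℂ K L] : (L ≃ₐ[K] L) →* (L ≃ₐ[ℂ] L) where
  toFun σ := σ.restrictScalars ℂ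
  map_one' := rfl
  map_mul' _ _ := rfl

theorem resHom_inj : Function.Injective (resHom K L) := by
  intro σ τ h
  ext x
  exact congrArg (fun f : L ≃ₐ[ℂ] L => f x) h

theorem card_range [FiniteDimensional K L] :
    Nat.card (resHom K L).range = Nat.card (L ≃ₐ[K] L) :=
  Nat.card_congr (MonoidHom.ofInjective (resHom_inj (K := K) (L := L))).toEquiv.symm

theorem finite_range [FiniteDimensional K L] : Finite (resHom K L).range :=
  Finite.of_equiv _ (MonoidHom.ofInjective (resHom_inj (K := K) (L := L))).toEquiv

end F3

theorem f3 : DegTower → ToNCover := by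
  intro hDT J g R k N K L L' _ _ _ _ _ _ _ _ _ _ _ _ _ _ _ t a z v A H hcard
  haveI := H.finite
  haveI : FiniteDimensional L L' := FiniteDimensional.right K L L'
  have happ := E6.append_map (L := L') t z
  have hfac : 0 < J.factorial := J.factorial_pos
  have hJ : 0 < J := lt_of_lt_of_le Module.finrank_pos H.degree
  have hdeg : Module.finrank L L' ≤ J.factorial := by
    have h1 : Module.finrank K L * Module.finrank L L' = Module.finrank K L' :=
      Module.finrank_mul_finrank K L L'
    have h2 : Nat.card (L' ≃ₐ[K] L') = Module.finrank K L' := IsGalois.card_aut_eq_finrank K L'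
    have h3 : 0 < Module.finrank K L := Module.finrank_pos
    calc Module.finrank L L' = 1 * Module.finrank L L' := (one_mul _).symm
      _ ≤ Module.finrank K L * Module.finrank L L' := Nat.mul_le_mul_right _ h3
      _ ≤ J.factorial := by rw [h1, ← h2]; exact hcard
  obtain ⟨hfin, hrank⟩ := hDT (g + k) L L' (Fin.append t z) H.finiteDim
  rw [← happ] at hfin hrank
  have hmono : ∀ u : Fin R ⊕ Fin k → ℤ,
      (∏ l, coord (fun i => algebraMap L L' (t i)) a (fun i => algebraMap L L' (z i)) l ^ u l) =
        algebraMap L L' (∏ l, coord t a z l ^ u l) := by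
    intro u
    rw [map_prod]
    refine Finset.prod_congr rfl fun l _ => ?_
    rw [E6.coord_map, map_zpow₀]
  refine ⟨(F3.resHom K L').range, ?_⟩
  exact
    { independent := by
        rw [happ]
        exact H.independent.map' (f := IsScalarTower.toAlgHom ℂ L L') (algebraMap L L').injective
      finiteDim := hfin
      degree := by
        rw [hrank]
        exact Nat.mul_le_mul H.degree' hdeg
      arr := H.arr
      rays := H.rays
      finite := F3.finite_range
      card := by
        rw [F3.card_range]
        exact le_trans hcard (Nat.le_mul_of_pos_left _ hJ)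
      field := by
        intro x
        rw [IsGalois.mem_range_algebraMap_iff_fixed]
        constructor
        · rintro h _ ⟨σ, rfl⟩
          exact h σ
        · intro h σ
          exact h _ ⟨σ, rfl⟩
      cover := by
        intro b hb
        have h1 := H.cover b hb
        set S := Algebra.adjoin ℂ {x : L | ∃ u : Fin R ⊕ Fin k → ℤ,
          (∀ j, 0 ≤ ∑ x, v j x * u x) ∧ x = ∏ l, coord t a z l ^ u l} with hS
        set S' := Algebra.adjoin ℂ {x : L' | ∃ u : Fin R ⊕ Fin k → ℤ,
          (∀ j, 0 ≤ ∑ x, v j x * u x) ∧ x = ∏ l, coord (fun i => algebraMap L L' (t i)) a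
            (fun i => algebraMap L L' (z i)) l ^ u l} with hS'
        have h2 : S ≤ S'.comap (IsScalarTower.toAlgHom ℂ L L') := by
          rw [hS]
          apply Algebra.adjoin_le
          rintro _ ⟨u, hu, rfl⟩
          refine Algebra.subset_adjoin ⟨u, hu, ?_⟩
          exact (hmono u).symm
        let f : S →ₐ[ℂ] S' := ((IsScalarTower.toAlgHom ℂ L L').comp S.val).codRestrict S'
          fun x => h2 x.2
        have h3 := IsIntegral.map_of_comp_eq (f : S →+* S') (algebraMap L L') rfl h1
        rw [← IsScalarTower.algebraMap_apply K L L'] at h3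
        exact h3
      finiteCover := by
        intro u hu
        have h1 := H.finiteCover u hu
        rw [hmono]
        refine IsIntegral.map_of_comp_eq (RingHom.id A) (algebraMap L L') ?_ h1
        ext x
        exact IsScalarTower.algebraMap_apply K L L' (x : K) }

end Vale.Agent.P283.O647
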