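import Vale.Agent.P283.O647.Props
import Vale.Agent.P283.N647.E2
import Vale.Agent.P283.M647.Final

/-!
F4. Monomial ideals in the Galois closure.
-/

set_option linter.all false

namespace Vale.Agent.P283.O647

open Vale.Agent.P283.M647 Vale.Agent.P283.N647
open Vale.Agent.P283.H647 (exists_ext jac_map)

namespace F4

section Coord

variable {K L : Type} [Field K] [Field L] [Algebra ℂ K] [Algebra ℂ L] [Algebra K L]
  [IsScalarTower ℂ K L] {g R k : ℕ}

theorem form_map (t : Fin g → K) (a : Fin R → Fin (g + 1) → ℂ) (p : Option (Fin R)) :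
    form (fun i => algebraMap K L (t i)) a p = algebraMap K L (form t a p) := by
  unfold form
  rw [map_sum]
  refine Finset.sum_congr rfl fun j _ => ?_
  rw [map_mul, ← IsScalarTower.algebraMap_apply]
  congr 1
  refine Fin.cases ?_ (fun i => ?_) j
  · rw [Fin.cons_zero, Fin.cons_zero, map_one]
  · rw [Fin.cons_succ, Fin.cons_succ]

theorem coord_map (t : Fin g → K) (a : Fin R → Fin (g + 1) → ℂ) (z : Fin k → K)
    (x : Fin R ⊕ Fin k) :
    coord (fun i => algebraMap K L (t i)) a (fun l => algebraMap K L (z l)) x =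
      algebraMap K L (coord t a z x) := by
  rcases x with i | l
  · exact form_map t a (some i)
  · rfl

theorem append_map (t : Fin g → K) (z : Fin k → K) :
    Fin.append (fun i => algebraMap K L (t i)) (fun l => algebraMap K L (z l)) =
      fun i => algebraMap K L (Fin.append t z i) := by
  funext i
  refine Fin.addCases (fun i => ?_) (fun i => ?_) i
  · rw [Fin.append_left, Fin.append_left]
  · rw [Fin.append_right, Fin.append_right]

end Coord

end F4

open F4 in
/-- F4. -/
theorem f4 (h1 : ExtBasics) (h5 : ExtUnique) : ToGenerated := by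
  intro g R k M K L L' _ _ _ _ _ _ _ _ _ _ _ _ _ _ _ t a z hg hy hc0 E D hD 𝒞 r ψ hgen
  haveI : FiniteDimensional L L' := FiniteDimensional.right K L L'
  haveI : Algebra.IsAlgebraic K L := Algebra.IsAlgebraic.of_finite K L
  haveI : Algebra.IsAlgebraic L L' := Algebra.IsAlgebraic.of_finite L L'
  haveI : Algebra.IsAlgebraic K L' := Algebra.IsAlgebraic.of_finite K L'
  have htrL : Algebra.trdeg ℂ L = ((g + k : ℕ) : Cardinal) := (h1 (g + k) L _ hy).2.1
  have htrL' : Algebra.trdeg ℂ L' = ((g + k : ℕ) : Cardinal) := by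
    have h6 : IsTranscendenceBasis ℂ (algebraMap L L' ∘ Fin.append t z) :=
      (E2.isTB hy).algebraMap_comp
    rw [← h6.cardinalMk_eq_trdeg]
    simp
  intro D'' h' hD'' hh' C hC u w' e' l b' α' hu hover he' hw'1 hw'u hl hb' hα'
  -- the derivations on `L`
  obtain ⟨D₁, hD₁⟩ := exists_ext (K := K) (L := L) htrL D
  obtain ⟨D₂, hD₂⟩ := exists_ext (K := L) (L := L') htrL' D₁
  have hD₂'' : D'' = D₂ := by
    funext i
    refine h5 K L' (D'' i) (D₂ i) fun x => ?_
    rw [hD'', IsScalarTower.algebraMap_apply K L L' x, hD₂, hD₁, ← IsScalarTower.algebraMap_apply]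
  subst hD₂''
  have hj : Q.jac D'' (Fin.append (fun i => algebraMap L L' (t i))
      (fun l => algebraMap L L' (z l))) = algebraMap L L' (Q.jac D₁ (Fin.append t z)) := by
    rw [append_map, jac_map hD₂]
  rw [hj] at hh'
  have hj0 : Q.jac D₁ (Fin.append t z) ≠ 0 := by
    intro h0
    rw [h0, map_zero, mul_zero] at hh'
    exact zero_ne_one hh'
  set h : L := (Q.jac D₁ (Fin.append t z))⁻¹ with hdef
  have hh : h * Q.jac D₁ (Fin.append t z) = 1 := inv_mul_cancel₀ hj0
  have hh0 : h ≠ 0 := inv_ne_zero hj0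
  have hh'eq : h' = algebraMap L L' h := by
    rw [hdef, map_inv₀]
    exact eq_inv_of_mul_eq_one_left hh'
  -- the valuation on `L`
  have hw'div : IsDivisorial (g + k) w' :=
    isDivisorial_of_ext (divisorial_iff.1 hu) hw'1 hw'u
  obtain ⟨w, e'', he'', hw, hw'w⟩ := exists_restriction (K := L) (g + k) w' hw'div
  obtain ⟨x₁, hx₁⟩ := hu.normalized
  have hx₁0 : x₁ ≠ 0 := ne_zero_of_eq u (n := 1) (by simpa using hx₁)
  have hcomp : ∀ x : K, e'' • w (algebraMap K L x) = e' • u x := by
    intro x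
    rw [← hw'w, ← IsScalarTower.algebraMap_apply, hw'u]
  have hcomp' : ∀ x : K, x ≠ 0 → (e'' : ℤ) * ov w (algebraMap K L x) = e' * ov u x := by
    intro x hx
    have h6 := hcomp x
    rw [← coe_ov w ((map_ne_zero (algebraMap K L)).2 hx), ← coe_ov u hx, ← WithTop.coe_nsmul,
      ← WithTop.coe_nsmul, WithTop.coe_inj, nsmul_eq_mul, nsmul_eq_mul] at h6
    exact h6
  have hux₁ : ov u x₁ = 1 := ov_eq_of u (by simpa using hx₁)
  have h7 := hcomp' x₁ hx₁0
  rw [hux₁, mul_one] at h7
  have he''Z : (0 : ℤ) < e'' := by exact_mod_cast he''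
  have he'Z : (0 : ℤ) < e' := by exact_mod_cast he'
  have h8 : 0 < ov w (algebraMap K L x₁) := by
    by_contra hneg
    push Not at hneg
    have := mul_nonpos_of_nonneg_of_nonpos he''Z.le hneg
    omega
  obtain ⟨e, he⟩ := Int.eq_ofNat_of_zero_le h8.le
  rw [he] at h7 h8
  have he0 : 0 < e := by exact_mod_cast h8
  have hwu : ∀ x : K, w (algebraMap K L x) = e • u x := by
    intro x
    by_cases hx : x = 0
    · subst hx
      obtain ⟨m, rfl⟩ := Nat.exists_eq_succ_of_ne_zero he0.ne'
      rw [map_zero, AddValuation.map_zero, AddValuation.map_zero, succ_nsmul, WithTop.add_top]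
    · rw [← coe_ov w ((map_ne_zero (algebraMap K L)).2 hx), ← coe_ov u hx, ← WithTop.coe_nsmul,
        WithTop.coe_inj, nsmul_eq_mul]
      have h9 := hcomp' x hx
      rw [← h7, mul_assoc] at h9
      exact mul_left_cancel₀ he''Z.ne' h9
  have hfin := hgen D₁ h hD₁ hh C hC u w e l (ov w h) (fun x => ov w (coord t a z x)) hu hover he0
    hw.normalized hwu hl (coe_ov w hh0).symm (fun x => (coe_ov w (hc0 x)).symm)
  have hb : (e'' : ℤ) * ov w h = b' := by
    have h9 := hw'w h
    rw [← hh'eq, hb', ← coe_ov w hh0, ← WithTop.coe_nsmul, WithTop.coe_inj, nsmul_eq_mul] at h9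
    exact h9.symm
  have hα : ∀ x, (e'' : ℤ) * ov w (coord t a z x) = α' x := by
    intro x
    have h9 := hw'w (coord t a z x)
    rw [← coord_map, hα', ← coe_ov w (hc0 x), ← WithTop.coe_nsmul, WithTop.coe_inj,
      nsmul_eq_mul] at h9
    exact h9.symm
  rw [D9.ordMono_mul E α' (fun x => ov w (coord t a z x)) e'' hα, ← hb, ← h7]
  have h10 : (e'' : ℤ) * e * l = e'' * (e * l) := by ring
  rw [h10, hfin]
  ring

end Vale.Agent.P283.O647
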