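import Vale.Agent.P283.O647.Props

/-!
F5. Extensions of derivations are unique.
-/

set_option linter.all false

namespace Vale.Agent.P283.O647


theorem f5 : ExtUnique := by
  intro L L' _ _ _ _ _ _ _ δ₁ δ₂ h
  haveI : CharZero L := charZero_of_injective_algebraMap (algebraMap ℂ L).injective
  haveI : Algebra.IsSeparable L L' := inferInstance
  haveI : Algebra.FormallyUnramified L L' := Algebra.FormallyUnramified.of_isSeparable L L'
  let δ : Derivation L L' L' :=
    Derivation.mk'
      { toFun := fun x => δ₁ x - δ₂ x
        map_add' := fun x y => by simp only [map_add]; ring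
        map_smul' := fun c x => by
          rw [Algebra.smul_def c x, Derivation.leibniz, Derivation.leibniz, h c, RingHom.id_apply,
            Algebra.smul_def c (δ₁ x - δ₂ x)]
          simp only [smul_eq_mul]
          ring }
      (fun x y => by
        simp only [LinearMap.coe_mk, AddHom.coe_mk, Derivation.leibniz, smul_eq_mul]
        ring)
  haveI : Subsingleton (Derivation L L' L') :=
    (KaehlerDifferential.linearMapEquivDerivation L L' (M := L')).symm.toEquiv.subsingleton
  have h0 : δ = 0 := Subsingleton.elim _ _
  ext x
  have h1 : δ x = 0 := by rw [h0]; rfl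
  have h2 : δ x = δ₁ x - δ₂ x := rfl
  rw [h2] at h1
  exact sub_eq_zero.1 h1

end Vale.Agent.P283.O647
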