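import Vale.Agent.P283.O647.Main
import Vale.Agent.P283.O647.F1
import Vale.Agent.P283.O647.F2
import Vale.Agent.P283.O647.F3
import Vale.Agent.P283.O647.F4
import Vale.Agent.P283.O647.F5

/-!
Bounded klt complements for pairs with a correspondence of bounded degree to a pair of arrangement
type: the proof.
-/

set_option linter.all false

namespace Vale.Agent.P283.O647

open Vale.Agent.P283.M647 Vale.Agent.P283.N647

theorem final (d J q : ℕ) (hq : 0 < q) (ε : ℝ) (hε : 0 < ε) :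
    ∃ c₀ : ℕ, 0 < c₀ ∧ ∀ n : ℕ, 0 < n → c₀ ∣ n → ∀ g k : ℕ, 0 < g → g + k = d →
    ∀ (K L : Type) [Field K] [Field L] [Algebra ℂ K] [Algebra ℂ L] [Algebra K L]
      [IsScalarTower ℂ K L] (R M N : ℕ) (t : Fin g → L) (a : Fin R → Fin (g + 1) → ℂ)
      (z : Fin k → L) (v : Fin N → Fin R ⊕ Fin k → ℤ) (A : Subalgebra ℂ K),
      IsCorr J t a z v A →
    ∀ D : Fin (g + k) → Derivation ℂ K K, (∃ z, Q.jac D z ≠ 0) →
    ∀ (𝒞 : Set (Subalgebra ℂ K)) (B : ∀ C : Subalgebra ℂ K, Q.QDivisor C) (r : ℕ)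
      (ψ : Subalgebra ℂ K → K), H207.IsPair D A 𝒞 B r ψ →
    ∀ (E : Fin (M + 1) → Fin R ⊕ Fin k → ℤ), IsGeneratedA t a z E D 𝒞 r ψ →
      IsSubdivision a v E →
      (∀ j, 0 ≤ toricDisc a r E (v j) ∧ toricDisc a r E (v j) ≤ 1 ∧
        ∃ z : ℤ, (q : ℚ) * toricDisc a r E (v j) = z) →
      (∀ C ∈ 𝒞, Q.IsEpsLC D (B C) ε) → H207.HasGlobalKltComplement D 𝒞 B n :=
  core f1 (f3 f2) (f4 e1 f5) d J q hq ε hε

end Vale.Agent.P283.O647
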