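import Vale.Agent.P283.O647.Props
import Vale.Agent.P283.N647.Final

/-!
Bounded klt complements for pairs with a correspondence of bounded degree to a pair of arrangement
type: from Galois closures to all finite extensions.
-/

set_option linter.all false

namespace Vale.Agent.P283.O647

open Vale.Agent.P283.M647 Vale.Agent.P283.N647

theorem core (h1 : GalClosure) (h3 : ToNCover) (h4 : ToGenerated) (d J q : ℕ) (hq : 0 < q) (ε : ℝ)
    (hε : 0 < ε) :
    ∃ c₀ : ℕ, 0 < c₀ ∧ ∀ n : ℕ, 0 < n → c₀ ∣ n → ∀ g k : ℕ, 0 < g → g + k = d →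
    ∀ (K L : Type) [Field K] [Field L] [Algebra ℂ K] [Algebra ℂ L] [Algebra K L]
      [IsScalarTower ℂ K L] (R M N : ℕ) (t : Fin g → L) (a : Fin R → Fin (g + 1) → ℂ)
      (z : Fin k → L) (v : Fin N → Fin R ⊕ Fin k → ℤ) (A : Subalgebra ℂ K),
      IsCorr J t a z v A →
    ∀ D : Fin (g + k) → Derivation ℂ K K, (∃ z, Q.jac D z ≠ 0) →
    ∀ (𝒞 : Set (Subalgebra ℂ K)) (B : ∀ C : Subalgebra ℂ K, Q.QDivisor C) (r : ℕ)
      (ψ : Subalgebra ℂ K → K), H207.IsPair D A 𝒞 B r ψ →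
    ∀ (E : Fin (M + 1) → Fin R ⊕ Fin k → ℤ), IsGeneratedA t a z E D 𝒞 r ψ →
      IsSubdivision a v E →
      (∀ j, 0 ≤ toricDisc a r E (v j) ∧ toricDisc a r E (v j) ≤ 1 ∧
        ∃ z : ℤ, (q : ℚ) * toricDisc a r E (v j) = z) →
      (∀ C ∈ 𝒞, Q.IsEpsLC D (B C) ε) → H207.HasGlobalKltComplement D 𝒞 B n := by
  obtain ⟨c₀, hc₀, hmain⟩ := N647.final_dim d (J * J.factorial) q hq ε hε
  refine ⟨c₀, hc₀, ?_⟩
  intro n hn hdvd g k hg hgk K L _ _ _ _ _ _ R M N t a z v A H D hD 𝒞 B r ψ hP E hgen hsub hdisc hlc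
  haveI := H.finite
  haveI : CharZero K := charZero_of_injective_algebraMap (algebraMap ℂ K).injective
  obtain ⟨L', iF, iK, iL, hT, hGal, hfin, hcard⟩ := h1 K L
  letI : Algebra ℂ L' := ((algebraMap K L').comp (algebraMap ℂ K)).toAlgebra
  haveI : IsScalarTower ℂ K L' := IsScalarTower.of_algebraMap_eq fun _ => rfl
  haveI : IsScalarTower ℂ L L' := IsScalarTower.of_algebraMap_eq fun c => by
    rw [IsScalarTower.algebraMap_apply ℂ K L, ← IsScalarTower.algebraMap_apply K L L']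
    rfl
  have hcard' : Nat.card (L' ≃ₐ[K] L') ≤ J.factorial :=
    le_trans hcard (Nat.factorial_le H.degree)
  obtain ⟨G, HG⟩ := h3 J g R k N K L L' t a z v A H hcard'
  have hfinL : IsFin (Fin.append t z) := ⟨H.independent, H.finiteDim⟩
  have hne : ∀ x, coord t a z x ≠ 0 := by
    intro x
    have h5 := e5 g R k L t a z hfinL H.arr hg
    rcases x with i | l
    · exact h5.1 (some i)
    · exact h5.2.1 l
  have hgen' := h4 g R k M K L L' t a z hg hfinL hne E D hD 𝒞 r ψ hgen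
  exact hmain n hn hdvd g k hg hgk K L' R M N _ a _ v G A HG D hD 𝒞 B r ψ hP E hgen' hsub hdisc hlc

end Vale.Agent.P283.O647
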