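import Vale.Agent.P283.O647.Defs
import Vale.Agent.P283.N647.Props

/-!
Statements of the parts of the proof.
-/

set_option linter.all false

namespace Vale.Agent.P283.O647

open Vale.Agent.P283.M647 Vale.Agent.P283.N647

/-- F1. Galois closures of bounded degree. -/
def GalClosure : Prop := ∀ (K L : Type) [Field K] [Field L] [Algebra K L]
  [FiniteDimensional K L] [CharZero K], ∃ (L' : Type) (_ : Field L') (_ : Algebra K L')
  (_ : Algebra L L'), IsScalarTower K L L' ∧ IsGalois K L' ∧ FiniteDimensional K L' ∧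
    Nat.card (L' ≃ₐ[K] L') ≤ (Module.finrank K L).factorial


/-- F2. The degree over the rational function field. -/
def DegTower : Prop := ∀ (d : ℕ) (L L' : Type) [Field L] [Field L'] [Algebra ℂ L] [Algebra ℂ L']
  [Algebra L L'] [IsScalarTower ℂ L L'] [FiniteDimensional L L'] (y : Fin d → L),
  FiniteDimensional (IntermediateField.adjoin ℂ (Set.range y)) L →
  FiniteDimensional (IntermediateField.adjoin ℂ (Set.range fun i => algebraMap L L' (y i))) L' ∧
  Module.finrank (IntermediateField.adjoin ℂ (Set.range fun i => algebraMap L L' (y i))) L' =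
    Module.finrank (IntermediateField.adjoin ℂ (Set.range y)) L * Module.finrank L L'

/-- F3. The cover `IsNCover` in the Galois closure. -/
def ToNCover : Prop := ∀ (J g R k N : ℕ) (K L L' : Type) [Field K] [Field L] [Field L']
  [Algebra ℂ K] [Algebra ℂ L] [Algebra ℂ L'] [Algebra K L] [Algebra K L'] [Algebra L L']
  [IsScalarTower ℂ K L] [IsScalarTower ℂ K L'] [IsScalarTower ℂ L L'] [IsScalarTower K L L']
  [IsGalois K L'] [FiniteDimensional K L'] (t : Fin g → L) (a : Fin R → Fin (g + 1) → ℂ)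
  (z : Fin k → L) (v : Fin N → Fin R ⊕ Fin k → ℤ) (A : Subalgebra ℂ K), IsCorr J t a z v A →
  Nat.card (L' ≃ₐ[K] L') ≤ J.factorial →
  ∃ G : Subgroup (L' ≃ₐ[ℂ] L'), IsNCover (J * J.factorial) (fun i => algebraMap L L' (t i)) a
    (fun l => algebraMap L L' (z l)) v G A

/-- F4. Monomial ideals in the Galois closure. -/
def ToGenerated : Prop := ∀ (g R k M : ℕ) (K L L' : Type) [Field K] [Field L] [Field L']
  [Algebra ℂ K] [Algebra ℂ L] [Algebra ℂ L'] [Algebra K L] [Algebra K L'] [Algebra L L']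
  [IsScalarTower ℂ K L] [IsScalarTower ℂ K L'] [IsScalarTower ℂ L L'] [IsScalarTower K L L']
  [FiniteDimensional K L] [FiniteDimensional K L'] (t : Fin g → L) (a : Fin R → Fin (g + 1) → ℂ)
  (z : Fin k → L), 0 < g → IsFin (Fin.append t z) → (∀ x, coord t a z x ≠ 0) →
  ∀ (E : Fin (M + 1) → Fin R ⊕ Fin k → ℤ) (D : Fin (g + k) → Derivation ℂ K K),
  (∃ x, Q.jac D x ≠ 0) →
  ∀ (𝒞 : Set (Subalgebra ℂ K)) (r : ℕ) (ψ : Subalgebra ℂ K → K), IsGeneratedA t a z E D 𝒞 r ψ →
  IsGeneratedA (fun i => algebraMap L L' (t i)) a (fun l => algebraMap L L' (z l)) E D 𝒞 r ψ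

/-- F5. Extensions of derivations are unique. -/
def ExtUnique : Prop := ∀ (L L' : Type) [Field L] [Field L'] [Algebra ℂ L] [Algebra ℂ L']
  [Algebra L L'] [IsScalarTower ℂ L L'] [FiniteDimensional L L'] (δ₁ δ₂ : Derivation ℂ L' L'),
  (∀ x : L, δ₁ (algebraMap L L' x) = δ₂ (algebraMap L L' x)) → δ₁ = δ₂

end Vale.Agent.P283.O647
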